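import Mathlib
import Vale.Agent.Lib.P040.H7.Cross
import Vale.Agent.Lib.P040.H7.Count

/-!
# P040, Q2 (Zarankiewicz): straight-line drawings with one colour class on a line, refined

For a straight-line drawing of the complete bipartite graph whose first class sits at `m`
distinct points `(a i, 0)` of the horizontal axis and whose second class sits at `n` points
`b k` off the axis, with no vertex `b k'` on an edge `b k -- (a i, 0)`:

1. the number of pairs of crossing independent edges is at least
   `s * ((m / 2) * ((m - 1) / 2))`, where `s` is the number of pairs `k < k'` such that `b k`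
   and `b k'` lie on the same side of the axis;
2. `s ≥ (n / 2) * ((n - 1) / 2)`.

Together they give the bound of `H7_CollinearClass`.  If `u` of the points `b k` lie above
the axis and `n - u` below, then `s = u (u - 1) / 2 + (n - u) (n - u - 1) / 2`.
-/

namespace Vale.Agent.Results.P040.H7_CollinearSides

open Vale.Agent.Lib.P040.H7

open Classical in
theorem result (m n : ℕ) (a : Fin m → ℝ) (b : Fin n → ℝ × ℝ)
    (ha : Function.Injective a) (hb : ∀ k, (b k).2 ≠ 0)
    (hgen : ∀ k k' : Fin n, k ≠ k' → ∀ i : Fin m,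
      b k' ∉ segment ℝ (b k) ((a i, 0) : ℝ × ℝ)) :
    ((Finset.univ : Finset (Fin n × Fin n)).filter
        (fun p => p.1 < p.2 ∧ 0 < (b p.1).2 * (b p.2).2)).card * ((m / 2) * ((m - 1) / 2)) ≤
      ((Finset.univ : Finset ((Fin n × Fin n) × (Fin m × Fin m))).filter
        (fun q => q.1.1 < q.1.2 ∧ q.2.1 ≠ q.2.2 ∧
          (openSegment ℝ (b q.1.1) ((a q.2.1, 0) : ℝ × ℝ) ∩
           openSegment ℝ (b q.1.2) ((a q.2.2, 0) : ℝ × ℝ)).Nonempty)).card ∧
    (n / 2) * ((n - 1) / 2) ≤
      ((Finset.univ : Finset (Fin n × Fin n)).filter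
        (fun p => p.1 < p.2 ∧ 0 < (b p.1).2 * (b p.2).2)).card := by
  classical
  set C : Finset ((Fin n × Fin n) × (Fin m × Fin m)) :=
    (Finset.univ : Finset ((Fin n × Fin n) × (Fin m × Fin m))).filter
        (fun q => q.1.1 < q.1.2 ∧ q.2.1 ≠ q.2.2 ∧
          (openSegment ℝ (b q.1.1) ((a q.2.1, 0) : ℝ × ℝ) ∩
           openSegment ℝ (b q.1.2) ((a q.2.2, 0) : ℝ × ℝ)).Nonempty) with hC
  set Sp : Finset (Fin n × Fin n) :=
    Finset.univ.filter (fun p => p.1 < p.2 ∧ 0 < (b p.1).2 * (b p.2).2) with hSp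
  have hSpcard : (n / 2) * ((n - 1) / 2) ≤ Sp.card := by
    have h := pairs_lower (fun k : Fin n => (b k).2) hb Sp (by
      intro i j hij hpos
      rcases lt_or_gt_of_ne hij with h | h
      · left
        simp only [hSp, Finset.mem_filter, Finset.mem_univ, true_and]
        exact ⟨h, hpos⟩
      · right
        simp only [hSp, Finset.mem_filter, Finset.mem_univ, true_and]
        refine ⟨h, ?_⟩
        rw [mul_comm]
        exact hpos)
    simpa using h
  have hfiber : ∀ p ∈ Sp, (m / 2) * ((m - 1) / 2) ≤ (C.filter (fun q => q.1 = p)).card := by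
    intro p hp
    simp only [hSp, Finset.mem_filter, Finset.mem_univ, true_and] at hp
    obtain ⟨hlt, hyy⟩ := hp
    set T : Finset (Fin m × Fin m) :=
      Finset.univ.filter (fun r => r.1 ≠ r.2 ∧
          (openSegment ℝ (b p.1) ((a r.1, 0) : ℝ × ℝ) ∩
           openSegment ℝ (b p.2) ((a r.2, 0) : ℝ × ℝ)).Nonempty) with hT
    have hne : p.1 ≠ p.2 := ne_of_lt hlt
    have h1 := pairs_lower
      (fun i : Fin m => side (b p.1).1 (b p.1).2 (b p.2).1 (b p.2).2 (a i))
      (fun i => side_ne_zero (b p.1).1 (b p.1).2 (b p.2).1 (b p.2).2 (a i) hyy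
        (hgen p.1 p.2 hne i) (hgen p.2 p.1 hne.symm i)) T (by
      intro i j hij hpos
      have hcr := cross_of_same_side (b p.1).1 (b p.1).2 (b p.2).1 (b p.2).2 (a i) (a j) hyy
        (fun h => hij (ha h)) hpos
      rcases hcr with h | h
      · left
        simp only [hT, Finset.mem_filter, Finset.mem_univ, true_and]
        exact ⟨hij, h⟩
      · right
        simp only [hT, Finset.mem_filter, Finset.mem_univ, true_and]
        exact ⟨hij.symm, h⟩)
    have h2 : T.card ≤ (C.filter (fun q => q.1 = p)).card := by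
      apply Finset.card_le_card_of_injOn (fun r => (p, r))
      · intro r hr
        have hr' : r.1 ≠ r.2 ∧
          (openSegment ℝ (b p.1) ((a r.1, 0) : ℝ × ℝ) ∩
           openSegment ℝ (b p.2) ((a r.2, 0) : ℝ × ℝ)).Nonempty := by
          simpa [hT] using hr
        simp only [hC, Finset.coe_filter, Finset.mem_filter, Finset.mem_univ, true_and]
        exact ⟨⟨hlt, hr'.1, hr'.2⟩, rfl⟩
      · intro r _ r' _ h
        exact (Prod.mk.inj h).2
    have h3 : (m / 2) * ((m - 1) / 2) ≤ T.card := by simpa using h1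
    exact le_trans h3 h2
  have htotal : C.card = ∑ p ∈ (Finset.univ : Finset (Fin n × Fin n)),
      (C.filter (fun q => q.1 = p)).card :=
    Finset.card_eq_sum_card_fiberwise (fun x _ => Finset.mem_univ _)
  have hsum : Sp.card * ((m / 2) * ((m - 1) / 2)) ≤
      ∑ p ∈ Sp, (C.filter (fun q => q.1 = p)).card := by
    have h := Finset.card_nsmul_le_sum Sp (fun p => (C.filter (fun q => q.1 = p)).card)
      ((m / 2) * ((m - 1) / 2)) hfiber
    simpa [smul_eq_mul] using h
  have hsub : ∑ p ∈ Sp, (C.filter (fun q => q.1 = p)).card ≤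
      ∑ p ∈ (Finset.univ : Finset (Fin n × Fin n)), (C.filter (fun q => q.1 = p)).card :=
    Finset.sum_le_sum_of_subset (Finset.subset_univ _)
  refine ⟨?_, hSpcard⟩
  calc Sp.card * ((m / 2) * ((m - 1) / 2))
      ≤ ∑ p ∈ Sp, (C.filter (fun q => q.1 = p)).card := hsum
    _ ≤ ∑ p ∈ (Finset.univ : Finset (Fin n × Fin n)), (C.filter (fun q => q.1 = p)).card := hsub
    _ = C.card := htotal.symm

end Vale.Agent.Results.P040.H7_CollinearSides
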